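import Mathlib

/-! The relation `(c - 1) N_{z'} (z - 1) θ = 0` up to torsion: the group-theoretic half. -/

namespace Vale.Agent.P024.H566

open Finset

variable {Γ S A : Type*} [Group Γ] [Group S] [CommGroup A]

section Act

variable {S₂ : Subgroup S} [S₂.Normal]

/-- `(act g θ) y = θ (g⁻¹ y g)` -/
def act (g : S) (θ : S₂ →* A) : S₂ →* A := θ.comp (MulAut.conjNormal g⁻¹ : MulAut S₂).toMonoidHom

lemma act_apply (g : S) (θ : S₂ →* A) (y : S₂) :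
    act g θ y = θ (MulAut.conjNormal g⁻¹ y) := rfl

lemma act_one (θ : S₂ →* A) : act 1 θ = θ := by
  ext y
  rw [act_apply, inv_one, map_one]
  rfl

lemma act_mul (g h : S) (θ : S₂ →* A) : act (g * h) θ = act g (act h θ) := by
  ext y
  rw [act_apply, act_apply, act_apply, mul_inv_rev, map_mul]
  rfl

lemma act_one_right (g : S) : act g (1 : S₂ →* A) = 1 := rfl

lemma act_mul_right (g : S) (θ θ' : S₂ →* A) : act g (θ * θ') = act g θ * act g θ' := rfl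

/-- the conjugation action of `S` on the characters of the normal subgroup `S₂`, as a
representation over `ℤ` -/
def rep (S₂ : Subgroup S) [S₂.Normal] (A : Type*) [CommGroup A] :
    Representation ℤ S (Additive (S₂ →* A)) where
  toFun g := (AddMonoidHom.mk' (fun θ : Additive (S₂ →* A) =>
    Additive.ofMul (act g θ.toMul)) fun _ _ => rfl).toIntLinearMap
  map_one' := LinearMap.ext fun θ => congrArg Additive.ofMul (act_one θ.toMul)
  map_mul' g h := LinearMap.ext fun θ => congrArg Additive.ofMul (act_mul g h θ.toMul)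

lemma rep_apply (g : S) (θ : Additive (S₂ →* A)) :
    rep S₂ A g θ = Additive.ofMul (act g θ.toMul) := rfl

end Act

section Rel

variable {GF H₀ GM : Subgroup Γ} [H₀.Normal] [GM.Normal] (h₁ : GM ≤ H₀) (h₂ : H₀ ≤ GF)
  (a : GF →* S) {S₂ : Subgroup S} [S₂.Normal] (aM : GM →* S₂)

/-- `Psi (x) = ∏_{i < e} χ (a (φ ^ i x φ ^ (-i)))` -/
def Psi (χ : S₂ →* A) (φ : Γ) (e : ℕ) : GM →* A :=
  ∏ i ∈ range e, χ.comp (aM.comp (MulAut.conjNormal (φ ^ i) : MulAut GM).toMonoidHom)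

lemma Psi_apply (χ : S₂ →* A) (φ : Γ) (e : ℕ) (x : GM) :
    Psi aM χ φ e x = ∏ i ∈ range e, χ (aM (MulAut.conjNormal (φ ^ i) x)) := by
  rw [Psi, MonoidHom.finsetProd_apply]
  rfl

/-- `N_φ`: the elements `x` of `H₀` with `a (φ ^ j x φ ^ (-j)) = 1` for `0 < j < k` -/
def Nphi (aH : H₀ →* S) (φ : Γ) (k : ℕ) : Subgroup H₀ :=
  ⨅ j ∈ Set.Ioo 0 k, (aH.comp (MulAut.conjNormal (φ ^ j) : MulAut H₀).toMonoidHom).ker

lemma mem_Nphi {aH : H₀ →* S} {φ : Γ} {k : ℕ} {x : H₀} :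
    x ∈ Nphi aH φ k ↔ ∀ j, 0 < j → j < k → aH (MulAut.conjNormal (φ ^ j) x) = 1 := by
  simp only [Nphi, Subgroup.mem_iInf, Set.mem_Ioo, MonoidHom.mem_ker, and_imp]
  rfl

instance (aH : H₀ →* S) (φ : Γ) (k : ℕ) : (Nphi aH φ k).Normal := by
  refine ⟨fun x hx g => ?_⟩
  rw [mem_Nphi] at hx ⊢
  intro j h0 hk
  rw [map_mul, map_mul, map_mul, map_mul, hx j h0 hk, mul_one, map_inv, map_inv,
    mul_inv_cancel]

/-- the restriction of `a` to `H₀` -/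
def resH : H₀ →* S := a.comp (Subgroup.inclusion h₂)

lemma resH_apply (x : H₀) : resH h₂ a x = a ⟨x, h₂ x.2⟩ := rfl

variable {a}

lemma resH_conj {φ : Γ} {k : ℕ} (hφ : φ ^ k ∈ GF) (t : ℕ) (w : H₀) :
    resH h₂ a (MulAut.conjNormal (φ ^ (k * t)) w)
      = a ⟨φ ^ k, hφ⟩ ^ t * resH h₂ a w * (a ⟨φ ^ k, hφ⟩ ^ t)⁻¹ := by
  rw [resH_apply, resH_apply, ← map_pow, ← map_inv, ← map_mul, ← map_mul]
  congr 1
  apply Subtype.ext
  rw [MulAut.conjNormal_apply]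
  simp only [Subgroup.coe_mul, Subgroup.coe_inv, Subgroup.coe_pow, pow_mul]

variable {h₁ h₂}

/-- the terms `i ≢ 0 mod k` are trivial on `N_φ` -/
lemma Psi_of_mem {aM : GM →* S₂} (haM : ∀ x : GM, (aM x : S) = a ⟨x, h₂ (h₁ x.2)⟩) (χ : S₂ →* A)
    {φ : Γ} {k : ℕ} (hk : 0 < k) (hφ : φ ^ k ∈ GF) {x : GM}
    (hx : (⟨x, h₁ x.2⟩ : H₀) ∈ Nphi (resH h₂ a) φ k) (q : ℕ) :
    Psi aM χ φ (k * q) x = (∏ t ∈ range q, act (a ⟨φ ^ k, hφ⟩ ^ t)⁻¹ χ) (aM x) := by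
  rw [Psi_apply, MonoidHom.finsetProd_apply]
  rw [mem_Nphi] at hx
  have hterm : ∀ t j, aM (MulAut.conjNormal (φ ^ (k * t + j)) x)
      = a ⟨φ ^ k, hφ⟩ ^ t * resH h₂ a (MulAut.conjNormal (φ ^ j) (⟨x, h₁ x.2⟩ : H₀)) *
        (a ⟨φ ^ k, hφ⟩ ^ t)⁻¹ := by
    intro t j
    rw [← resH_conj h₂ hφ, haM, resH_apply]
    congr 1
    apply Subtype.ext
    simp only [MulAut.conjNormal_apply, pow_add, mul_inv_rev, mul_assoc]
  induction q with
  | zero => simp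
  | succ q ih =>
    rw [Nat.mul_succ, prod_range_add, ih, prod_range_succ]
    congr 1
    obtain ⟨k', rfl⟩ : ∃ k', k = k' + 1 := ⟨k - 1, by omega⟩
    rw [prod_range_succ', prod_eq_one, one_mul, act_apply, inv_inv]
    · congr 1
      apply Subtype.ext
      rw [hterm q 0, MulAut.conjNormal_apply, resH_apply, haM]
      congr 3
      exact Subtype.ext (by simp)
    · intro j hj
      have h3 : aM (MulAut.conjNormal (φ ^ ((k' + 1) * q + (j + 1))) x) = 1 := by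
        apply Subtype.ext
        rw [hterm, hx (j + 1) (by omega) (by have := mem_range.1 hj; omega)]
        simp
      rw [h3, map_one]

/-- `Psi` is invariant under conjugation by `φ` -/
lemma Psi_conj {aM : GM →* S₂} (χ : S₂ →* A) {φ : Γ} {e : ℕ} (hφ : φ ^ e ∈ GM) (x : GM) :
    Psi aM χ φ e (MulAut.conjNormal φ x) = Psi aM χ φ e x := by
  rw [Psi_apply, Psi_apply]
  have h1 : ∀ i, MulAut.conjNormal (φ ^ i) (MulAut.conjNormal φ x)
      = MulAut.conjNormal (φ ^ (i + 1)) x := by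
    intro i
    rw [pow_succ, map_mul]
    rfl
  simp_rw [h1]
  have h2 := prod_range_succ' (fun i => χ (aM (MulAut.conjNormal (φ ^ i) x))) e
  have h3 := prod_range_succ (fun i => χ (aM (MulAut.conjNormal (φ ^ i) x))) e
  have h4 : χ (aM (MulAut.conjNormal (φ ^ e) x)) = χ (aM (MulAut.conjNormal (φ ^ 0) x)) := by
    have h5 : (MulAut.conjNormal (φ ^ e) x : GM) = ⟨φ ^ e, hφ⟩ * x * ⟨φ ^ e, hφ⟩⁻¹ := by
      apply Subtype.ext
      rw [MulAut.conjNormal_apply]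
      rfl
    rw [h5, map_mul, map_mul, map_inv, map_mul, map_mul, map_inv, pow_zero, map_one]
    rw [mul_right_comm, mul_inv_cancel, one_mul]
    rfl
  rw [h3, h4] at h2
  exact (mul_right_cancel h2).symm

/-- uniform exponent -/
lemma exists_pow_mem {G : Type*} [Group G] (K : Subgroup G) (hK : K.index ≠ 0) :
    ∃ r : ℕ, 0 < r ∧ ∀ y : G, y ^ r ∈ K := by
  refine ⟨K.index.factorial, Nat.factorial_pos _, fun y => ?_⟩
  obtain ⟨n, hn0, hn, hy⟩ := Subgroup.exists_pow_mem_of_index_ne_zero hK y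
  obtain ⟨c, hc⟩ := Nat.dvd_factorial hn0 hn
  rw [hc, pow_mul]
  exact pow_mem hy c

/-- **The relation, group-theoretic half.** -/
theorem rel_group {aM : GM →* S₂} (haM : ∀ x : GM, (aM x : S) = a ⟨x, h₂ (h₁ x.2)⟩)
    (hfin : aM.range.index ≠ 0) (χ : S₂ →* A) {φ : Γ} {k : ℕ} (hk : 0 < k) (hφ : φ ^ k ∈ GF)
    (q : ℕ) {m : ℕ} (hm : 0 < m) (hPsi : Psi aM χ φ (k * q) ^ m = 1) :
    ∃ M : ℕ, 0 < M ∧ ∀ c ∈ (Nphi (resH h₂ a) φ k).map (resH h₂ a),
      (act c (∏ t ∈ range q, act (a ⟨φ ^ k, hφ⟩ ^ t)⁻¹ χ) /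
        ∏ t ∈ range q, act (a ⟨φ ^ k, hφ⟩ ^ t)⁻¹ χ) ^ M = 1 := by
  obtain ⟨r, hr, hr'⟩ := exists_pow_mem aM.range hfin
  refine ⟨r * m, Nat.mul_pos hr hm, fun c hc => ?_⟩
  set F : S₂ →* A := ∏ t ∈ range q, act (a ⟨φ ^ k, hφ⟩ ^ t)⁻¹ χ with hF
  have key : ∀ c ∈ (Nphi (resH h₂ a) φ k).map (resH h₂ a), ∀ y : GM,
      (F (MulAut.conjNormal c (aM y)) / F (aM y)) ^ m = 1 := by
    rintro c ⟨n, hn, rfl⟩ y
    have hn' : n ∈ Nphi (resH h₂ a) φ k := hn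
    let w : GM := ⟨n * y * (n : Γ)⁻¹ * (y : Γ)⁻¹,
      mul_mem (Subgroup.Normal.conj_mem inferInstance _ y.2 _) (inv_mem y.2)⟩
    have hw : (⟨w, h₁ w.2⟩ : H₀) ∈ Nphi (resH h₂ a) φ k := by
      have e : (⟨w, h₁ w.2⟩ : H₀) = n * ((⟨y, h₁ y.2⟩ : H₀) * n⁻¹ * (⟨y, h₁ y.2⟩ : H₀)⁻¹) := by
        apply Subtype.ext
        simp only [Subgroup.coe_mul, Subgroup.coe_inv, w, mul_assoc]
      rw [e]
      exact mul_mem hn' (Subgroup.Normal.conj_mem inferInstance _ (inv_mem hn') _)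
    have h3 := Psi_of_mem haM χ hk hφ hw q
    rw [← hF] at h3
    have h4 : aM w = MulAut.conjNormal (resH h₂ a n) (aM y) * (aM y)⁻¹ := by
      apply Subtype.ext
      rw [haM, Subgroup.coe_mul, MulAut.conjNormal_apply, Subgroup.coe_inv, haM, resH_apply,
        ← map_inv, ← map_inv, ← map_mul, ← map_mul, ← map_mul]
      rfl
    rw [h4, map_mul, map_inv, ← div_eq_mul_inv] at h3
    rw [← h3, ← MonoidHom.pow_apply, hPsi]
    rfl
  have hc' := key c⁻¹ (inv_mem hc)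
  ext y
  obtain ⟨y₀, hy₀⟩ := hr' y
  rw [MonoidHom.pow_apply, MonoidHom.div_apply, act_apply, MonoidHom.one_apply, pow_mul,
    div_pow, ← map_pow, ← map_pow, ← map_pow, ← hy₀]
  exact hc' y₀

end Rel

end Vale.Agent.P024.H566
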