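import Mathlib

/-! The group ring lemma. -/

namespace Vale.Agent.P024.H566

open Finset Subgroup MonoidAlgebra

variable {G : Type*} [Group G]

/-- the number of `j < m` with `z' ^ j * a = g` -/
noncomputable def cnt (z' : G) (m : ℕ) (a g : G) : ℤ :=
  ∑ j ∈ range m, (Finsupp.single (z' ^ j * a) (1 : ℤ)) g

lemma coeff_norm_mul (z' : G) (m : ℕ) (a g : G) :
    ((∑ j ∈ range m, of ℤ G z' ^ j) * of ℤ G a).coeff g = cnt z' m a g := by
  rw [sum_mul]
  simp_rw [← map_pow, ← map_mul]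
  rw [coeff_sum, Finsupp.finsetSum_apply]
  rfl

lemma cnt_nonneg (z' : G) (m : ℕ) (a g : G) : 0 ≤ cnt z' m a g := by
  classical
  refine sum_nonneg fun j _ => ?_
  rw [Finsupp.single_apply]
  split_ifs <;> norm_num

lemma mem_of_cnt_ne {z' : G} {m : ℕ} {a g : G} (h : cnt z' m a g ≠ 0) :
    ∃ w ∈ zpowers z', w * a = g := by
  classical
  obtain ⟨j, -, hj⟩ := exists_ne_zero_of_sum_ne_zero h
  rw [Finsupp.single_apply] at hj
  by_contra hcon
  push Not at hcon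
  rw [if_neg (hcon _ (pow_mem (mem_zpowers z') j))] at hj
  exact hj rfl

lemma cnt_self_pos (z' : G) {m : ℕ} (hm : 0 < m) (a : G) : 0 < cnt z' m a a := by
  classical
  refine sum_pos' (fun j _ => ?_) ⟨0, mem_range.2 hm, ?_⟩
  · rw [Finsupp.single_apply]
    split_ifs <;> norm_num
  · rw [pow_zero, one_mul, Finsupp.single_eq_same]
    norm_num

lemma expand (z z' c' : G) (m : ℕ) :
    (∑ j ∈ range m, of ℤ G z' ^ j) * (of ℤ G z - 1) * (1 - of ℤ G c')
      = (∑ j ∈ range m, of ℤ G z' ^ j) * of ℤ G z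
        - (∑ j ∈ range m, of ℤ G z' ^ j) * of ℤ G (z * c')
        - (∑ j ∈ range m, of ℤ G z' ^ j) * of ℤ G 1
        + (∑ j ∈ range m, of ℤ G z' ^ j) * of ℤ G c' := by
  rw [map_mul, map_one]
  noncomm_ring

/-- the element `(∑ z' ^ j) (z - 1) (1 - c')` of the group ring -/
noncomputable def Y (z z' c' : G) (m : ℕ) : MonoidAlgebra ℤ G :=
  (∑ j ∈ range m, of ℤ G z' ^ j) * (of ℤ G z - 1) * (1 - of ℤ G c')

lemma coeff_Y (z z' c' : G) (m : ℕ) (g : G) :
    (Y z z' c' m).coeff g = cnt z' m z g - cnt z' m (z * c') g - cnt z' m 1 g + cnt z' m c' g := by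
  rw [Y, expand, coeff_add, coeff_sub, coeff_sub, Finsupp.add_apply, Finsupp.sub_apply,
    Finsupp.sub_apply, coeff_norm_mul, coeff_norm_mul, coeff_norm_mul, coeff_norm_mul]

/-- If `Y = 0` then `z` or `c'` is a power of `z'`. -/
theorem of_Y_eq_zero {z z' c' : G} {m : ℕ} (hm : 0 < m) (h : Y z z' c' m = 0) :
    z ∈ zpowers z' ∨ c' ∈ zpowers z' := by
  have h1 := coeff_Y z z' c' m 1
  rw [h, coeff_zero, Finsupp.zero_apply] at h1
  have h2 := cnt_self_pos z' hm 1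
  have h3 := cnt_nonneg z' m (z * c') 1
  by_cases h4 : cnt z' m z 1 = 0
  · have h5 : cnt z' m c' 1 ≠ 0 := by omega
    obtain ⟨w, hw, hw1⟩ := mem_of_cnt_ne h5
    right
    have : c' = w⁻¹ := (inv_eq_of_mul_eq_one_right hw1).symm
    rw [this]
    exact inv_mem hw
  · obtain ⟨w, hw, hw1⟩ := mem_of_cnt_ne h4
    left
    have : z = w⁻¹ := (inv_eq_of_mul_eq_one_right hw1).symm
    rw [this]
    exact inv_mem hw

/-- If `Y ≠ 0` is fixed by the left translations by `C`, then `C` lies in four right cosets of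
`⟨z'⟩`. -/
theorem of_Y_ne_zero {z z' c' : G} {m : ℕ} (h : Y z z' c' m ≠ 0) {C : Set G}
    (hC : ∀ c ∈ C, (of ℤ G c - 1) * Y z z' c' m = 0) :
    ∃ t : Fin 4 → G, ∀ c ∈ C, ∃ i, ∃ w ∈ zpowers z', c⁻¹ = w * t i := by
  obtain ⟨g, hg⟩ : ∃ g, (Y z z' c' m).coeff g ≠ 0 := by
    by_contra hcon
    push Not at hcon
    apply h
    ext g
    rw [hcon g]
    rfl
  refine ⟨![z * g⁻¹, z * c' * g⁻¹, 1 * g⁻¹, c' * g⁻¹], fun c hc => ?_⟩
  have h1 : (Y z z' c' m).coeff (c⁻¹ * g) ≠ 0 := by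
    have h2 := hC c hc
    rw [sub_mul, one_mul, sub_eq_zero] at h2
    have h3 : (of ℤ G c * Y z z' c' m).coeff g = (Y z z' c' m).coeff (c⁻¹ * g) := by
      rw [of_apply, coeff_single_mul_apply, one_mul]
    rw [← h3, h2]
    exact hg
  rw [coeff_Y] at h1
  have key : ∀ {a : G}, cnt z' m a (c⁻¹ * g) ≠ 0 → ∃ w ∈ zpowers z', c⁻¹ = w * (a * g⁻¹) := by
    intro a ha
    obtain ⟨w, hw, hw1⟩ := mem_of_cnt_ne ha
    exact ⟨w, hw, by rw [← mul_assoc, hw1, mul_inv_cancel_right]⟩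
  by_cases ha : cnt z' m z (c⁻¹ * g) = 0
  · by_cases hb : cnt z' m (z * c') (c⁻¹ * g) = 0
    · by_cases hd : cnt z' m 1 (c⁻¹ * g) = 0
      · exact ⟨3, key (by omega)⟩
      · exact ⟨2, key hd⟩
    · exact ⟨1, key hb⟩
  · exact ⟨0, key ha⟩

/-- **The group ring lemma.** -/
theorem gr (z z' c' : G) (m : ℕ) (hm : 0 < m) (C : Subgroup G)
    (h : ∀ c ∈ C, (of ℤ G c - 1) * (∑ j ∈ range m, of ℤ G z' ^ j) * (of ℤ G z - 1) *
      (1 - of ℤ G c') = 0) :
    z ∈ zpowers z' ∨ c' ∈ zpowers z' ∨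
      ∃ t : Fin 4 → G, ∀ c ∈ C, ∃ i, ∃ w ∈ zpowers z', c = w * t i := by
  by_cases hY : Y z z' c' m = 0
  · rcases of_Y_eq_zero hm hY with h1 | h1
    · exact Or.inl h1
    · exact Or.inr (Or.inl h1)
  · obtain ⟨t, ht⟩ := of_Y_ne_zero hY (C := C) fun c hc => by
      have := h c hc
      rw [Y, ← mul_assoc, ← mul_assoc]
      exact this
    refine Or.inr (Or.inr ⟨t, fun c hc => ?_⟩)
    obtain ⟨i, w, hw, h2⟩ := ht c⁻¹ (inv_mem hc)
    exact ⟨i, w, hw, by rw [← h2, inv_inv]⟩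

lemma involution_eq {z' : G} {a : G} (ha : a ∈ zpowers z') (ha2 : a * a = 1) (ha1 : a ≠ 1) :
    a = z' ^ (orderOf z' / 2) := by
  obtain ⟨i, rfl⟩ := mem_zpowers_iff.1 ha
  rw [← zpow_add, ← orderOf_dvd_iff_zpow_eq_one] at ha2
  have h1 : ¬ (orderOf z' : ℤ) ∣ i := fun h => ha1 (orderOf_dvd_iff_zpow_eq_one.1 h)
  obtain ⟨k, hk⟩ := ha2
  rcases Int.even_or_odd' k with ⟨j, rfl | rfl⟩
  · exfalso
    apply h1
    refine ⟨j, ?_⟩
    linarith
  · obtain ⟨h, hh⟩ : ∃ h : ℕ, orderOf z' = 2 * h := by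
      rcases Nat.even_or_odd' (orderOf z') with ⟨h, hh | hh⟩
      · exact ⟨h, hh⟩
      · exfalso
        rw [hh] at hk
        push_cast at hk
        have h2 : (2 * i : ℤ) = 2 * (2 * h * j + h + j) + 1 := by linarith
        omega
    have h3 : i = orderOf z' * j + h := by
      have h4 : (i + i : ℤ) = 2 * h * (2 * j + 1) := by
        rw [hk, hh]
        push_cast
        ring
      rw [hh]
      push_cast
      linarith
    rw [h3, zpow_add, zpow_mul, zpow_natCast, pow_orderOf_eq_one, one_zpow, one_mul, zpow_natCast]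
    congr 1
    omega

/-- Two different involutions do not lie in one cyclic group. -/
theorem involution_unique {z' : G} {a b : G} (ha : a ∈ zpowers z')
    (hb : b ∈ zpowers z') (ha2 : a * a = 1) (hb2 : b * b = 1) (ha1 : a ≠ 1) (hb1 : b ≠ 1) :
    a = b :=
  (involution_eq ha ha2 ha1).trans (involution_eq hb hb2 hb1).symm

end Vale.Agent.P024.H566
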