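import Vale.Agent.P024.M4.Spec
import Vale.Agent.P024.H566.Rel

/-! The relation `(c - 1) N_{z'} (z - 1) θ = 0` up to torsion, in the language of `M4.Spec`. -/

namespace Vale.Agent.P024.H566

open Finset

section Bridge

variable {S A : Type*} [Group S] [CommGroup A] {V : Subgroup S} [hV : V.Normal]

/-- an element of `V` acts trivially -/
lemma act_mem {v : S} (hv : v ∈ V) (θ : V →* A) : act v θ = θ := by
  ext y
  rw [act_apply]
  have : (MulAut.conjNormal v⁻¹ y : V) = ⟨v, hv⟩⁻¹ * y * ⟨v, hv⟩ := by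
    apply Subtype.ext
    rw [MulAut.conjNormal_apply]
    simp
  rw [this, map_mul, map_mul, map_inv]
  rw [mul_right_comm, inv_mul_cancel, one_mul]

lemma act_congr {g g' : S} (h : (g : S ⧸ V) = g') (θ : V →* A) : act g θ = act g' θ := by
  rw [QuotientGroup.eq] at h
  have h1 : g' = g * (g⁻¹ * g') := by group
  rw [h1, act_mul, act_mem h]

lemma m4_term (q : S ⧸ V) (θ : V →* A) (y : V) (h : q.out⁻¹ * (y : S) * q.out ∈ V) :
    θ ⟨q.out⁻¹ * y * q.out, h⟩ = act q.out θ y := by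
  rw [act_apply]
  congr 1
  apply Subtype.ext
  rw [MulAut.conjNormal_apply, inv_inv]

/-- the action in `M4.Spec` as an additive map in `Y` -/
noncomputable def actHom (θ : V →* A) (y : V) : MonoidAlgebra ℤ (S ⧸ V) →+ Additive A where
  toFun Y := Additive.ofMul (M4.act Y θ y)
  map_zero' := by
    show Additive.ofMul (M4.act 0 θ y) = 0
    unfold M4.act
    simp
  map_add' Y Y' := by
    show Additive.ofMul (M4.act (Y + Y') θ y) = Additive.ofMul (M4.act Y θ y * M4.act Y' θ y)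
    congr 1
    unfold M4.act
    rw [← finprod_mul_distrib]
    · refine finprod_congr fun q => ?_
      rw [MonoidAlgebra.coeff_add, Finsupp.add_apply, zpow_add]
    · refine (Y.coeff.hasFiniteSupport).subset fun q hq => ?_
      rw [Function.mem_mulSupport] at hq
      rw [Function.mem_support]
      intro h0
      exact hq (by rw [h0, zpow_zero])
    · refine (Y'.coeff.hasFiniteSupport).subset fun q hq => ?_
      rw [Function.mem_mulSupport] at hq
      rw [Function.mem_support]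
      intro h0
      exact hq (by rw [h0, zpow_zero])

lemma actHom_apply (θ : V →* A) (y : V) (Y : MonoidAlgebra ℤ (S ⧸ V)) :
    actHom θ y Y = Additive.ofMul (M4.act Y θ y) := rfl

lemma m4_of (g : S) (θ : V →* A) (y : V) :
    M4.act (MonoidAlgebra.of ℤ _ (g : S ⧸ V)) θ y = act g θ y := by
  classical
  unfold M4.act
  rw [finprod_eq_single _ (g : S ⧸ V)]
  · rw [MonoidAlgebra.of_apply, MonoidAlgebra.coeff_single, Finsupp.single_eq_same, zpow_one,
      m4_term]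
    rw [act_congr (Quotient.out_eq _ : (((g : S ⧸ V).out : S) : S ⧸ V) = g)]
  · intro q hq
    rw [MonoidAlgebra.of_apply, MonoidAlgebra.coeff_single, Finsupp.single_eq_of_ne hq, zpow_zero]

lemma actHom_of (g : S) (θ : V →* A) (y : V) :
    actHom θ y (MonoidAlgebra.of ℤ _ (g : S ⧸ V)) = Additive.ofMul (act g θ y) :=
  congrArg Additive.ofMul (m4_of g θ y)

lemma sum_pow_inv {Q : Type*} [Group Q] {w : Q} {m : ℕ} (h : w ^ m = 1) :
    ∑ t ∈ range m, MonoidAlgebra.of ℤ Q w⁻¹ ^ t = ∑ t ∈ range m, MonoidAlgebra.of ℤ Q w ^ t := by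
  have h1 : ∀ t ∈ range m, MonoidAlgebra.of ℤ Q w⁻¹ ^ t
      = MonoidAlgebra.of ℤ Q w ^ ((m - 1 - t) + 1) := by
    intro t ht
    have := mem_range.1 ht
    rw [← map_pow, ← map_pow]
    congr 1
    rw [inv_pow, inv_eq_iff_mul_eq_one, ← pow_add]
    rw [show t + (m - 1 - t + 1) = m by omega, h]
  rw [sum_congr rfl h1, sum_range_reflect (fun j => MonoidAlgebra.of ℤ Q w ^ (j + 1)) m]
  have h2 := sum_range_succ' (fun j => MonoidAlgebra.of ℤ Q w ^ j) m
  have h3 := sum_range_succ (fun j => MonoidAlgebra.of ℤ Q w ^ j) m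
  rw [h3, pow_zero, ← map_pow, h, map_one] at h2
  exact (add_right_cancel h2).symm

/-- the element `(c - 1) N (z - 1)` acts as expected -/
lemma m4_act_eq (c z w : S) (m : ℕ) (hw : w ^ m ∈ V) (θ : V →* A) (y : V) :
    M4.act ((MonoidAlgebra.of ℤ _ (c : S ⧸ V) - 1) *
      (∑ j ∈ range m, MonoidAlgebra.of ℤ _ (w : S ⧸ V) ^ j) *
      (MonoidAlgebra.of ℤ _ (z : S ⧸ V) - 1)) θ y
      = (act c (∏ t ∈ range m, act (w ^ t)⁻¹ (act z θ / θ)) /
        ∏ t ∈ range m, act (w ^ t)⁻¹ (act z θ / θ)) y := by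
  have hw' : ((w : S ⧸ V)) ^ m = 1 := by
    rw [← QuotientGroup.mk_pow, QuotientGroup.eq_one_iff]
    exact hw
  rw [← sum_pow_inv hw']
  have e1 : (MonoidAlgebra.of ℤ _ (c : S ⧸ V) - 1) *
      (∑ j ∈ range m, MonoidAlgebra.of ℤ _ (w : S ⧸ V)⁻¹ ^ j) *
      (MonoidAlgebra.of ℤ _ (z : S ⧸ V) - 1)
      = ∑ j ∈ range m, (MonoidAlgebra.of ℤ _ ((c * (w ^ j)⁻¹ * z : S) : S ⧸ V)
        - MonoidAlgebra.of ℤ _ ((c * (w ^ j)⁻¹ : S) : S ⧸ V)
        - MonoidAlgebra.of ℤ _ (((w ^ j)⁻¹ * z : S) : S ⧸ V)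
        + MonoidAlgebra.of ℤ _ (((w ^ j)⁻¹ : S) : S ⧸ V)) := by
    rw [mul_sum, sum_mul]
    refine sum_congr rfl fun j _ => ?_
    rw [QuotientGroup.mk_mul, QuotientGroup.mk_mul, QuotientGroup.mk_mul, QuotientGroup.mk_inv,
      QuotientGroup.mk_pow, map_mul, map_mul, map_mul, ← inv_pow, map_pow]
    noncomm_ring
  rw [e1]
  have e2 : Additive.ofMul (M4.act (∑ j ∈ range m,
      (MonoidAlgebra.of ℤ _ ((c * (w ^ j)⁻¹ * z : S) : S ⧸ V)
        - MonoidAlgebra.of ℤ _ ((c * (w ^ j)⁻¹ : S) : S ⧸ V)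
        - MonoidAlgebra.of ℤ _ (((w ^ j)⁻¹ * z : S) : S ⧸ V)
        + MonoidAlgebra.of ℤ _ (((w ^ j)⁻¹ : S) : S ⧸ V))) θ y)
      = ∑ j ∈ range m, (Additive.ofMul (act (c * (w ^ j)⁻¹ * z) θ y)
        - Additive.ofMul (act (c * (w ^ j)⁻¹) θ y)
        - Additive.ofMul (act ((w ^ j)⁻¹ * z) θ y)
        + Additive.ofMul (act ((w ^ j)⁻¹) θ y)) := by
    rw [← actHom_apply, map_sum]
    refine sum_congr rfl fun j _ => ?_
    rw [map_add, map_sub, map_sub, actHom_of, actHom_of, actHom_of, actHom_of]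
  have e3 : M4.act (∑ j ∈ range m,
      (MonoidAlgebra.of ℤ _ ((c * (w ^ j)⁻¹ * z : S) : S ⧸ V)
        - MonoidAlgebra.of ℤ _ ((c * (w ^ j)⁻¹ : S) : S ⧸ V)
        - MonoidAlgebra.of ℤ _ (((w ^ j)⁻¹ * z : S) : S ⧸ V)
        + MonoidAlgebra.of ℤ _ (((w ^ j)⁻¹ : S) : S ⧸ V))) θ y
      = ∏ j ∈ range m, (act (c * (w ^ j)⁻¹ * z) θ y / act (c * (w ^ j)⁻¹) θ y
        / act ((w ^ j)⁻¹ * z) θ y * act ((w ^ j)⁻¹) θ y) := by
    apply Additive.ofMul.injective
    rw [e2, ofMul_prod]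
    rfl
  rw [e3, MonoidHom.div_apply, act_apply, MonoidHom.finsetProd_apply,
    MonoidHom.finsetProd_apply, ← prod_div_distrib]
  refine prod_congr rfl fun j _ => ?_
  rw [mul_assoc c, act_mul c, act_mul c, act_apply c, act_apply c]
  rw [act_apply (w ^ j)⁻¹ (act z θ / θ), act_apply (w ^ j)⁻¹ (act z θ / θ), MonoidHom.div_apply,
    MonoidHom.div_apply, act_mul, act_apply (w ^ j)⁻¹ (act z θ), act_apply (w ^ j)⁻¹ (act z θ),
    act_apply (w ^ j)⁻¹ θ, act_apply (w ^ j)⁻¹ θ]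
  rw [div_div_eq_mul_div, div_mul_eq_mul_div]

end Bridge

section Main

variable {Γ S A G : Type*} [Group Γ] [Group S] [CommGroup A] [Group G] {ι : G →* Γ} {a : G →* S}
  {H : Subgroup Γ} [hH : H.Normal] {V : Subgroup S} [hV : V.Normal] {aH : H →* V}

omit hV in
lemma aH_conj (hι : Function.Injective ι) (haH : ∀ x : H, ∃ s : G, ι s = x ∧ a s = aH x) (g : G)
    (x : H) : (aH (MulAut.conjNormal (ι g) x) : S) = a g * aH x * (a g)⁻¹ := by
  obtain ⟨s, hs, hs'⟩ := haH x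
  obtain ⟨s', hs1, hs2⟩ := haH (MulAut.conjNormal (ι g) x)
  have : s' = g * s * g⁻¹ := by
    apply hι
    rw [hs1, MulAut.conjNormal_apply, map_mul, map_mul, map_inv, hs]
  rw [← hs2, this, map_mul, map_mul, map_inv, hs']

/-- **The relation, group-theoretic half** (without an intermediate normal subgroup). -/
theorem rel_direct (hι : Function.Injective ι) (haH : ∀ x : H, ∃ s : G, ι s = x ∧ a s = aH x)
    (hfin : aH.range.index ≠ 0) (χ : V →* A) {f : Γ} {k m : ℕ} (hk : 0 < k) {z' : G}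
    (hz' : ι z' = f ^ k) {M : ℕ} (hM : 0 < M)
    (hPsi : ∀ x : H, (∏ i ∈ range (k * m), χ (aH (MulAut.conjNormal (f ^ i) x))) ^ M = 1)
    {n : G} (hn : ∀ j, 0 < j → j < k → ∃ u : G, ι u = f ^ j * ι n * (f ^ j)⁻¹ ∧ a u = 1) :
    ∃ M' : ℕ, 0 < M' ∧ (act (a n)⁻¹ (∏ t ∈ range m, act (a z' ^ t)⁻¹ χ) /
        ∏ t ∈ range m, act (a z' ^ t)⁻¹ χ) ^ M' = 1 := by
  obtain ⟨r, hr, hr'⟩ := exists_pow_mem aH.range hfin
  refine ⟨r * M, Nat.mul_pos hr hM, ?_⟩
  set F : V →* A := ∏ t ∈ range m, act (a z' ^ t)⁻¹ χ with hF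
  -- the commutator
  have key : ∀ y : H, (F (MulAut.conjNormal (a n) (aH y)) / F (aH y)) ^ M = 1 := by
    intro y
    let w : H := MulAut.conjNormal (ι n) y * y⁻¹
    have hw0 : (aH w : V) = MulAut.conjNormal (a n) (aH y) * (aH y)⁻¹ := by
      apply Subtype.ext
      rw [map_mul, Subgroup.coe_mul, aH_conj hι haH, map_inv, Subgroup.coe_mul,
        MulAut.conjNormal_apply]
    have hwj : ∀ j, 0 < j → j < k → aH (MulAut.conjNormal (f ^ j) w) = 1 := by
      intro j hj0 hjk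
      obtain ⟨u, hu, hau⟩ := hn j hj0 hjk
      have e : MulAut.conjNormal (f ^ j) w
          = MulAut.conjNormal (ι u) (MulAut.conjNormal (f ^ j) y) *
            (MulAut.conjNormal (f ^ j) y)⁻¹ := by
        rw [map_mul, map_inv, ← MulAut.mul_apply, ← map_mul, ← MulAut.mul_apply, ← map_mul, hu]
        congr 3
        group
      apply Subtype.ext
      rw [e, map_mul, Subgroup.coe_mul, aH_conj hι haH, map_inv, hau]
      simp
    have hterm : ∀ t j, (aH (MulAut.conjNormal (f ^ (k * t + j)) w) : S)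
        = a z' ^ t * aH (MulAut.conjNormal (f ^ j) w) * (a z' ^ t)⁻¹ := by
      intro t j
      have e0 : ι (z' ^ t) = f ^ (k * t) := by rw [map_pow, hz', ← pow_mul]
      rw [← map_pow a, ← aH_conj hι haH, e0, ← MulAut.mul_apply, ← map_mul, ← pow_add]
    have hprod : ∀ q, ∏ i ∈ range (k * q), χ (aH (MulAut.conjNormal (f ^ i) w))
        = (∏ t ∈ range q, act (a z' ^ t)⁻¹ χ) (aH w) := by
      intro q
      rw [MonoidHom.finsetProd_apply]
      induction q with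
      | zero => simp
      | succ q ih =>
        rw [Nat.mul_succ, prod_range_add, ih, prod_range_succ]
        congr 1
        obtain ⟨k', rfl⟩ : ∃ k', k = k' + 1 := ⟨k - 1, by omega⟩
        rw [prod_range_succ', prod_eq_one, one_mul, act_apply, inv_inv]
        · congr 1
          apply Subtype.ext
          rw [hterm q 0, MulAut.conjNormal_apply, pow_zero, map_one]
          rfl
        · intro j hj
          have h3 : aH (MulAut.conjNormal (f ^ ((k' + 1) * q + (j + 1))) w) = 1 := by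
            apply Subtype.ext
            rw [hterm, hwj (j + 1) (by omega) (by have := mem_range.1 hj; omega)]
            simp
          rw [h3, map_one]
    have h4 := hPsi w
    rw [hprod m, ← hF, hw0, map_mul, map_inv, ← div_eq_mul_inv] at h4
    exact h4
  ext y
  obtain ⟨y₀, hy₀⟩ := hr' y
  rw [MonoidHom.pow_apply, MonoidHom.div_apply, act_apply, inv_inv, MonoidHom.one_apply, pow_mul,
    div_pow, ← map_pow, ← map_pow, ← map_pow, ← hy₀]
  exact key y₀

/-- **The relation in the language of `M4.Spec`.** -/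
theorem rel_act (hι : Function.Injective ι) (haH : ∀ x : H, ∃ s : G, ι s = x ∧ a s = aH x)
    (hfin : aH.range.index ≠ 0) {f : Γ} {k m : ℕ} (hk : 0 < k) (hf : f ^ (k * m) ∈ H) {z' : G}
    (hz' : ι z' = f ^ k) (z : S) (θ : V →* A)
    (hPsi : ∃ M : ℕ, 0 < M ∧ ∀ x : H, (∏ i ∈ range (k * m),
      (θ ⟨z⁻¹ * (aH ⟨f ^ i * x * (f ^ i)⁻¹, hH.conj_mem x x.2 (f ^ i)⟩ : S) * z, by
        have := hV.conj_mem _ (aH ⟨f ^ i * x * (f ^ i)⁻¹, hH.conj_mem x x.2 (f ^ i)⟩).2 z⁻¹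
        rwa [inv_inv] at this⟩ /
        θ (aH ⟨f ^ i * x * (f ^ i)⁻¹, hH.conj_mem x x.2 (f ^ i)⟩))) ^ M = 1)
    {n : G} (hn : ∀ j, 0 < j → j < k → ∃ u : G, ι u = f ^ j * ι n * (f ^ j)⁻¹ ∧ a u = 1) :
    ∃ M : ℕ, 0 < M ∧ ∀ y : V, M4.act ((MonoidAlgebra.of ℤ _ (a n : S ⧸ V) - 1) *
      (∑ j ∈ range m, MonoidAlgebra.of ℤ _ (a z' : S ⧸ V) ^ j) *
      (MonoidAlgebra.of ℤ _ (z : S ⧸ V) - 1)) θ y ^ M = 1 := by
  obtain ⟨M, hM, hP⟩ := hPsi
  have hP' : ∀ x : H, (∏ i ∈ range (k * m),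
      (act z θ / θ) (aH (MulAut.conjNormal (f ^ i) x))) ^ M = 1 := by
    intro x
    rw [← hP x]
    congr 1
    refine prod_congr rfl fun i _ => ?_
    rw [MonoidHom.div_apply, act_apply]
    congr 2
    apply Subtype.ext
    rw [MulAut.conjNormal_apply]
    show z⁻¹ * (aH (MulAut.conjNormal (f ^ i) x) : S) * z⁻¹⁻¹
      = z⁻¹ * (aH (MulAut.conjNormal (f ^ i) x) : S) * z
    rw [inv_inv]
  have hn' : ∀ j, 0 < j → j < k → ∃ u : G, ι u = f ^ j * ι n⁻¹ * (f ^ j)⁻¹ ∧ a u = 1 := by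
    intro j h0 h1
    obtain ⟨u, hu, hau⟩ := hn j h0 h1
    refine ⟨u⁻¹, ?_, by rw [map_inv, hau, inv_one]⟩
    rw [map_inv, hu, map_inv]
    group
  obtain ⟨M', hM', h⟩ := rel_direct hι haH hfin (act z θ / θ) hk hz' hM hP' hn'
  refine ⟨M', hM', fun y => ?_⟩
  have hw : a z' ^ m ∈ V := by
    obtain ⟨s, hs, hs'⟩ := haH ⟨f ^ (k * m), hf⟩
    have : s = z' ^ m := by
      apply hι
      rw [hs, map_pow, hz', ← pow_mul]
    rw [← map_pow, ← this, hs']
    exact Subtype.prop _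
  rw [m4_act_eq (a n) z (a z') m hw θ y, ← MonoidHom.pow_apply]
  rw [map_inv, inv_inv] at h
  rw [h]
  rfl

end Main

end Vale.Agent.P024.H566
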